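import Vale.Agent.P042.R2.H757.Spec

set_option autoImplicit false

/-! # P042, rows MER and NUM of helper757 (crude Mertens bound; growth comparison). -/

namespace Vale.Agent.P042.H968

open Finset Vale.Agent.P042.H757

/-- the primes of one dyadic block -/
theorem block (j : ℕ) (hj : 1 ≤ j) (S : Finset ℕ)
    (hS : ∀ p ∈ S, p.Prime ∧ Nat.log 2 p = j) : ∑ p ∈ S, (1 : ℝ) / p ≤ 4 * (j : ℝ)⁻¹ := by
  have hl2 : 0 < Real.log 2 := Real.log_pos (by norm_num)
  have hj0 : (0 : ℝ) < j := by exact_mod_cast hj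
  have h1 : ∀ p ∈ S, (1 : ℝ) / p ≤ Real.log p / (2 ^ j * (j * Real.log 2)) := by
    intro p hp
    obtain ⟨hpp, hlog⟩ := hS p hp
    have h2 : 2 ^ j ≤ p := by rw [← hlog]; exact Nat.pow_log_le_self 2 hpp.ne_zero
    have h3 : ((2 : ℝ) ^ j) ≤ p := by exact_mod_cast h2
    have h4 : j * Real.log 2 ≤ Real.log p := by
      rw [← Real.log_pow]
      exact Real.log_le_log (by positivity) h3
    rw [div_le_div_iff₀ (by exact_mod_cast hpp.pos) (by positivity), one_mul]
    calc (2 : ℝ) ^ j * (j * Real.log 2) ≤ p * Real.log p := by gcongr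
      _ = Real.log p * p := mul_comm _ _
  have h5 : ∑ p ∈ S, Real.log p ≤ Real.log 4 * ((2 ^ (j + 1) : ℕ) : ℝ) := by
    refine le_trans ?_ (Chebyshev.theta_le_log4_mul_x (x := ((2 ^ (j + 1) : ℕ) : ℝ))
      (by positivity))
    rw [Chebyshev.theta, Nat.floor_natCast]
    refine Finset.sum_le_sum_of_subset_of_nonneg ?_ ?_
    · intro p hp
      obtain ⟨hpp, hlog⟩ := hS p hp
      have h6 : p < 2 ^ (j + 1) := by
        rw [← hlog]; exact Nat.lt_pow_succ_log_self (by norm_num) p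
      exact Finset.mem_filter.2 ⟨Finset.mem_Ioc.2 ⟨hpp.pos, h6.le⟩, hpp⟩
    · intro p hp _
      exact Real.log_natCast_nonneg p
  calc ∑ p ∈ S, (1 : ℝ) / p ≤ ∑ p ∈ S, Real.log p / (2 ^ j * (j * Real.log 2)) :=
        Finset.sum_le_sum h1
    _ = (∑ p ∈ S, Real.log p) / (2 ^ j * (j * Real.log 2)) := by rw [Finset.sum_div]
    _ ≤ (Real.log 4 * ((2 ^ (j + 1) : ℕ) : ℝ)) / (2 ^ j * (j * Real.log 2)) := by gcongr
    _ = 4 * (j : ℝ)⁻¹ := by
        have h7 : Real.log 4 = 2 * Real.log 2 := by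
          rw [show (4 : ℝ) = 2 ^ 2 by norm_num, Real.log_pow]; norm_num
        rw [h7]
        push_cast
        field_simp
        ring

theorem rowMer : StMer := by
  refine ⟨8, by norm_num, fun N hN => ?_⟩
  have hl2 : 0 < Real.log 2 := Real.log_pos (by norm_num)
  obtain ⟨J, hJ⟩ : ∃ J, J = Nat.log 2 N := ⟨_, rfl⟩
  have hJ1 : 1 ≤ J := by rw [hJ]; exact Nat.log_pos (by norm_num) (by omega)
  have h1 : ∑ p ∈ (Icc 1 N).filter Nat.Prime, (1 : ℝ) / p
      = ∑ j ∈ Icc 1 J, ∑ p ∈ ((Icc 1 N).filter Nat.Prime).filter (fun p => Nat.log 2 p = j),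
        (1 : ℝ) / p := by
    refine (Finset.sum_fiberwise_of_maps_to (fun p hp => ?_) _).symm
    obtain ⟨hp1, hpp⟩ := Finset.mem_filter.1 hp
    refine Finset.mem_Icc.2 ⟨Nat.log_pos (by norm_num) hpp.two_le, ?_⟩
    rw [hJ]
    exact Nat.log_mono_right (Finset.mem_Icc.1 hp1).2
  rw [h1]
  have h2 : ∑ j ∈ Icc 1 J, ∑ p ∈ ((Icc 1 N).filter Nat.Prime).filter (fun p => Nat.log 2 p = j),
        (1 : ℝ) / p ≤ ∑ j ∈ Icc 1 J, 4 * (j : ℝ)⁻¹ := by
    refine Finset.sum_le_sum fun j hj => block j (Finset.mem_Icc.1 hj).1 _ fun p hp => ?_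
    obtain ⟨hp1, hp2⟩ := Finset.mem_filter.1 hp
    exact ⟨(Finset.mem_filter.1 hp1).2, hp2⟩
  refine h2.trans ?_
  rw [← Finset.mul_sum]
  have h3 : ∑ j ∈ Icc 1 J, (j : ℝ)⁻¹ ≤ 1 + Real.log J := by
    have := harmonic_le_one_add_log J
    rw [harmonic_eq_sum_Icc] at this
    push_cast at this
    exact this
  have hN3 : (3 : ℝ) ≤ N := by exact_mod_cast hN
  have hNlog : 1 < Real.log N := by
    have h4 : Real.exp 1 < N := lt_of_lt_of_le (lt_trans Real.exp_one_lt_d9 (by norm_num)) hN3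
    rw [← Real.log_exp 1]
    exact Real.log_lt_log (Real.exp_pos 1) h4
  have h5 : (J : ℝ) * Real.log 2 ≤ Real.log N := by
    rw [← Real.log_pow]
    refine Real.log_le_log (by positivity) ?_
    have : 2 ^ J ≤ N := by rw [hJ]; exact Nat.pow_log_le_self 2 (by omega)
    exact_mod_cast this
  have hJ0 : (0 : ℝ) < J := by exact_mod_cast hJ1
  have h6 : (J : ℝ) ≤ 2 * Real.log N := by
    have := Real.log_two_gt_d9
    nlinarith
  have h7 : Real.log J ≤ Real.log 2 + Real.log (Real.log N) := by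
    rw [← Real.log_mul (by norm_num) (by linarith)]
    exact Real.log_le_log hJ0 h6
  have h8 : 0 < Real.log (Real.log N) := Real.log_pos hNlog
  have h9 := Real.log_two_lt_d9
  linarith

theorem rowNum : StNum := by
  intro k hk K ε hK hε
  have hk0 : (2 : ℝ) ≤ k := by exact_mod_cast hk
  -- exponents
  obtain ⟨β, hβ⟩ : ∃ β : ℝ, β = 1 / (4 * k + 4) := ⟨_, rfl⟩
  have hβ0 : 0 < β := by rw [hβ]; positivity
  have hα : ((2 * k + 1 : ℝ) / (2 * k + 2)) = 1 - 2 * β := by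
    rw [hβ]; field_simp; ring
  have hβ1 : 2 * β < 1 := by
    rw [hβ, mul_one_div, div_lt_one (by positivity)]; linarith
  obtain ⟨A, hA⟩ : ∃ A : ℝ, A = K * (6 * (1 + 1 / β)) := ⟨_, rfl⟩
  have hA0 : 0 < A := by rw [hA]; positivity
  refine ⟨Real.exp (A * (A / ε) ^ (1 / β)), Real.exp_pos _, fun N hN => ?_⟩
  have hN3 : (3 : ℝ) ≤ N := by exact_mod_cast hN
  have hN0 : (0 : ℝ) < N := by linarith
  obtain ⟨L, hL⟩ : ∃ L : ℝ, L = Real.log N := ⟨_, rfl⟩
  have hL1 : 1 < L := by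
    have h4 : Real.exp 1 < N := lt_of_lt_of_le (lt_trans Real.exp_one_lt_d9 (by norm_num)) hN3
    rw [hL, ← Real.log_exp 1]
    exact Real.log_lt_log (Real.exp_pos 1) h4
  have hL0 : 0 < L := by linarith
  rw [← hL, hα, Real.rpow_def_of_pos hN0, ← hL, ← Real.exp_add]
  apply Real.exp_le_exp.2
  have e1 : 1 + Real.log L ≤ (1 + 1 / β) * L ^ β := by
    have e2 := Real.log_le_rpow_div hL0.le hβ0
    have e3 : (1 : ℝ) ≤ L ^ β := Real.one_le_rpow hL1.le hβ0.le
    calc 1 + Real.log L ≤ L ^ β + L ^ β / β := by linarith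
      _ = _ := by ring
  have e4 : L ^ (1 - 2 * β) + 5 ≤ 6 * L ^ (1 - 2 * β) := by
    have : (1 : ℝ) ≤ L ^ (1 - 2 * β) := Real.one_le_rpow hL1.le (by linarith)
    linarith
  have e5 : 0 ≤ 1 + Real.log L := by
    have := Real.log_nonneg hL1.le
    linarith
  have e6 : K * (L ^ (1 - 2 * β) + 5) * (1 + Real.log L) ≤ A * L ^ (1 - β) := by
    calc K * (L ^ (1 - 2 * β) + 5) * (1 + Real.log L)
        ≤ K * (6 * L ^ (1 - 2 * β)) * ((1 + 1 / β) * L ^ β) := by gcongr
      _ = A * (L ^ (1 - 2 * β) * L ^ β) := by rw [hA]; ring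
      _ = A * L ^ (1 - β) := by
          rw [← Real.rpow_add hL0]; congr 2; ring
  refine e6.trans ?_
  have hT : 0 < (A / ε) ^ (1 / β) := by positivity
  rcases le_or_gt ((A / ε) ^ (1 / β)) L with h | h
  · have f1 : A / ε ≤ L ^ β := by
      calc A / ε = ((A / ε) ^ (1 / β)) ^ β := by
            rw [← Real.rpow_mul (by positivity), one_div_mul_cancel hβ0.ne', Real.rpow_one]
        _ ≤ L ^ β := Real.rpow_le_rpow hT.le h hβ0.le
    have f2 : A ≤ ε * L ^ β := by
      rw [div_le_iff₀ hε] at f1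
      linarith
    have f3 : A * L ^ (1 - β) ≤ L * ε := by
      calc A * L ^ (1 - β) ≤ (ε * L ^ β) * L ^ (1 - β) := by gcongr
        _ = ε * (L ^ β * L ^ (1 - β)) := by ring
        _ = L * ε := by
            rw [← Real.rpow_add hL0, add_sub_cancel, Real.rpow_one, mul_comm]
    have : 0 < A * (A / ε) ^ (1 / β) := by positivity
    linarith
  · have g1 : L ^ (1 - β) ≤ L := by
      calc L ^ (1 - β) ≤ L ^ (1 : ℝ) := Real.rpow_le_rpow_of_exponent_le hL1.le (by linarith)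
        _ = L := Real.rpow_one L
    have g2 : A * L ^ (1 - β) ≤ A * (A / ε) ^ (1 / β) := by
      gcongr
      exact g1.trans h.le
    have : 0 < L * ε := by positivity
    linarith

end Vale.Agent.P042.H968
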